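import Vale.Agent.P153.R2.LAND.Gen

/-!
P153-R2, block LAND: exact statements of RDEC and LAND for frozen data in `[-2 j - 1, -1]`.
-/

namespace Vale.Agent.P153.R2.LAND

open Set Relation
open Vale.Agent.P153 Vale.Agent.P153.Topo
open Vale.Agent.P153.R2 (bx)
open Vale.Agent.P153.R2.PLAN

/-- The law LJ: `V` is simply connected; `V ∩ A` is free, `V \ A` is frozen with data in
`[-2 j - 1, -1]`; the walls are `{-1, 1}` in `A` and in `[-2 j - 1, 1]` off `A`. -/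
structure LJ (V A : Set Pt) (I : Pt → Set ℤ) (j : ℕ) : Prop where
  dat : Dat V I
  ne : (Cfg V I).Nonempty
  cc : CC V
  free : ∀ x ∈ V, x ∈ A → I x = univ
  froz : ∀ x ∈ V, x ∉ A → ∀ b ∈ I x, -(2 * (j : ℤ) + 1) ≤ b ∧ b ≤ -1
  wallA : ∀ x ∈ ebd V, x ∈ A → I x = {-1, 1}
  wall : ∀ x ∈ ebd V, x ∉ A → ∀ b ∈ I x, -(2 * (j : ℤ) + 1) ≤ b ∧ b ≤ 1

/-- **RDEC**: the mean at distance `s + 1` from the walls (smeared over `bx w (s / 4)`) is at least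
`-η`, if the frozen data are far away. -/
def S_rdec (j : ℕ) : Prop := ∀ η : ℝ, 0 < η → ∃ K s₀ : ℤ, 1 ≤ K ∧ 1 ≤ s₀ ∧
  ∀ (V A : Set Pt) (I : Pt → Set ℤ), LJ V A I j → ∀ (x₀ : Pt) (r ρ R : ℤ), x₀ ∉ V → 1 ≤ r →
    K * r ≤ ρ → K * ρ ≤ R → bx x₀ R \ bx x₀ r ⊆ A → ∀ w ∈ V, w ∈ Ring x₀ ρ →
    ∀ s, s₀ ≤ s → bx w s ⊆ V → ¬ bx w (s + 1) ⊆ V →
    ∃ (S : Finset Pt) (f : Pt → ℝ), (∀ x ∈ S, x ∈ bx w (s / 4)) ∧ (∀ x ∈ S, 0 ≤ f x) ∧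
      ∑ x ∈ S, f x = 1 ∧ -η ≤ Ex (Cfg V I) (fun h => ∑ x ∈ S, f x * (h x : ℝ))

/-- **LAND**: the attached `{h ≥ 1}`-vertices of `V ∩ A` separate `p` from `q`. -/
def S_land (j : ℕ) : Prop := ∃ (K : ℤ) (α : ℝ), 1 ≤ K ∧ 0 < α ∧
  ∀ (V A : Set Pt) (I : Pt → Set ℤ), LJ V A I j → ∀ (x₀ : Pt) (r R : ℤ), x₀ ∉ V → 1 ≤ r →
    K * r ≤ R → bx x₀ R \ bx x₀ r ⊆ A → ∀ p ∈ V, p ∉ A → p ∈ bx x₀ r → (∃ o, o ∉ V ∧ Adj p o) →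
    ∀ q ∈ V, q ∉ A → q ∉ bx x₀ R → (∃ o, o ∉ V ∧ Adj q o) →
    α ≤ Pr (Cfg V I) (SepAtt V (V ∩ A) 1 p q)

end Vale.Agent.P153.R2.LAND
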