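import Vale.Agent.P153.R2.LAND.Gen
import Vale.Agent.P153.R2.F2.Lev

/-!
P153-R2, block LAND: the cluster of the frozen set misses a box, with probability bounded below
(from the one-sided non-crossings of block F2).
-/

namespace Vale.Agent.P153.R2.LAND

open Set Relation
open Vale.Agent.P153 Vale.Agent.P153.Topo
open Vale.Agent.P153.R2 (bx)
open Vale.Agent.P153.R2.PLAN
open Vale.Agent.P153.R2.F2 (thk NoCr Cx OneS)

variable {V Z T : Set Pt} {I : Pt → Set ℤ} {a b : ℤ} {p q w : Pt}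

/-- A lower bound for the exact-data laws on `V'` gives the same lower bound for `Cfg V I`. -/
theorem Pr_ge_of_exact (hd : Dat V I) (hne : (Cfg V I).Nonempty) {V' : Set Pt} (hV' : V' ⊆ V)
    (hI : ∀ x ∈ V', I x = univ) {E : Set Hg} {c : ℝ}
    (h : ∀ h ∈ Cfg V I, h ∈ Cx V' h → c ≤ Pr (Cx V' h) E) : c ≤ Pr (Cfg V I) E := by
  classical
  have hf := Cfg_finite hd
  have key := Pr_ge_of_fiber hf (fun g : Hg => fun x => if x ∈ V' then 0 else g x) E univ (c := c)
    (fun _ _ _ _ _ => ⟨fun _ => mem_univ _, fun _ => mem_univ _⟩) ?_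
  · rw [Pr_univ hf hne, mul_one, univ_inter] at key
    exact key
  · intro g hg _
    have e : Cfg V I ∩ {b | (fun x => if x ∈ V' then 0 else b x) =
        fun x => if x ∈ V' then 0 else g x} = Cfg V I ∩ {b | ∀ x, x ∉ V' → b x = g x} := by
      ext b
      refine and_congr_right fun _ => ?_
      rw [mem_ofPred_eq, mem_ofPred_eq, funext_iff]
      refine forall_congr' fun x => ?_
      by_cases hx : x ∈ V'
      · simp [hx]
      · simp [hx]
    have e2 : (fun x => if x ∈ V' then I x else {g x}) = exa V' g := by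
      funext x
      unfold exa
      split_ifs with hx
      · exact hI x hx
      · rfl
    have e3 : Cfg V I ∩ {b | ∀ x, x ∉ V' → b x = g x} = Cx V' g := by
      rw [Cfg_agree hg hV', e2]
    rw [e, e3]
    refine h g hg ?_
    rw [← e3]
    exact ⟨hg, fun _ _ => rfl⟩

theorem thk_singleton (w : Pt) (r : ℤ) : thk {w} r = bx w r := by
  ext x
  simp only [thk, bx, mem_singleton_iff, exists_eq_left, mem_ofPred_eq]

theorem miss_of_noCr {h : Hg} {t s : ℤ} (hs : Disjoint Z (bx w s))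
    (h1 : NoCr (dn h a) (bx w t) (bx w s)) : h ∈ Miss V Z a (bx w t) := by
  show Disjoint _ _
  rw [Set.disjoint_left]
  rintro x ⟨z, hz, hzx⟩ hx
  exact h1 x hx z (fun h5 => Set.disjoint_left.1 hs hz h5) (hzx.symm.mono inter_subset_right)

/-- The cluster of the frozen set misses a box with probability bounded below. -/
theorem miss_lower {R s₀ : ℤ} {c : ℝ} (hR : 1 ≤ R) (hs₀ : 1 ≤ s₀) (hc : 0 < c)
    (hone : OneS R s₀ c) (j : ℕ) : ∃ (θ : ℝ) (s₁ : ℤ), 0 < θ ∧ 0 < s₁ ∧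
    ∀ (V Z : Set Pt) (I : Pt → Set ℤ) (a : ℤ), Odd a → Dat V I → (Cfg V I).Nonempty → Z ⊆ V →
    (∀ x ∈ V, x ∉ Z → I x = univ) → (∀ x ∈ Z, ∀ b ∈ I x, a - 2 * j ≤ b) →
    (∀ x ∈ ebd V, ∀ b ∈ I x, a - 2 * j ≤ b) → ∀ (w : Pt) (s t : ℤ), s₁ ≤ s → 0 ≤ t → 2 * t ≤ s →
    bx w s ⊆ V \ Z → θ ≤ Pr (Cfg V I) (Miss V Z a (bx w t)) := by
  set C : ℤ := (2 * j + 3) * (2 * R + 7) with hC
  have hC1 : 1 ≤ C := by
    have h1 : (1 : ℤ) ≤ 2 * j + 3 := by omega
    have h2 : 1 ≤ 2 * R + 7 := by omega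
    calc (1 : ℤ) = 1 * 1 := by ring
      _ ≤ (2 * j + 3) * (2 * R + 7) := mul_le_mul h1 h2 (by norm_num) (by omega)
  obtain ⟨θ, hθ, key⟩ := F2.s_ncr R s₀ c hR hs₀ hc hone (4 * C) j
  refine ⟨θ, 2 * C * (s₀ + 1), hθ, by positivity, ?_⟩
  intro V Z I a ha hd hne hZV hI hZ hout w s t hs ht hts hbx
  set σ : ℤ := (s - t) / C with hσ
  have g1 : C * σ ≤ s - t := by
    rw [hσ, mul_comm]
    exact Int.ediv_mul_le _ (by omega)
  have g2 : s - t < C * (σ + 1) := by
    rw [hσ]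
    have := Int.lt_ediv_add_one_mul_self (s - t) (show 0 < C by omega)
    linarith
  have g3 : s₀ ≤ σ := by
    by_contra hcon
    push Not at hcon
    have h1 : σ + 1 ≤ s₀ := by omega
    have h2 : C * (σ + 1) ≤ C * s₀ := mul_le_mul_of_nonneg_left h1 (by omega)
    have h3 : 2 * C * (s₀ + 1) = 2 * (C * s₀) + 2 * C := by ring
    omega
  have hdisj : Disjoint Z (bx w s) := by
    rw [Set.disjoint_left]
    intro z hz hzb
    exact (hbx hzb).2 hz
  refine Pr_ge_of_exact hd hne (V' := V \ Z) sdiff_subset (fun x hx => hI x hx.1 hx.2)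
    fun h hh hhx => ?_
  have k1 := (key σ g3 w {w} (V \ Z) h a t (t + C * σ) ?_ ht ?_ ?_ (hd.fin.subset sdiff_subset) ?_
    ⟨h, hhx⟩ ha).2 ?_
  · rw [thk_singleton, thk_singleton] at k1
    refine k1.trans (Pr_mono fun g hg hgc => miss_of_noCr (s := t + C * σ) ?_ hgc)
    exact hdisj.mono_right (bx_mono (by omega))
  · rintro x rfl
    simp only [bx, mem_ofPred_eq, sub_self, abs_zero]
    have : 0 ≤ C * σ := mul_nonneg (by omega) (by omega)
    constructor <;> nlinarith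
  · rw [hC]
    ring_nf
    rfl
  · have h1 : C * (σ + 1) = C * σ + C := by ring
    have h2 : C ≤ C * σ := by
      calc C = C * 1 := by ring
        _ ≤ C * σ := mul_le_mul_of_nonneg_left (by omega) (by omega)
    have h3 : 4 * C * σ = 4 * (C * σ) := by ring
    rw [h3]
    omega
  · rw [thk_singleton]
    exact fun x hx => hbx (bx_mono (by omega) hx.1)
  · intro x hx
    obtain ⟨hx1, v, hv, hvx⟩ := hx
    by_cases hxV : x ∈ V
    · have hxZ : x ∈ Z := by
        by_contra h5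
        exact hx1 ⟨hxV, h5⟩
      exact hZ x hxZ _ (hh.2.1 x)
    · exact hout x ⟨hxV, v, hv.1, hvx⟩ _ (hh.2.1 x)

end Vale.Agent.P153.R2.LAND
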