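import Vale.Agent.P153.R2.LAND.Stmt
import Vale.Agent.P153.R2.LAND.Miss

/-!
P153-R2, block LAND: RDEC implies LAND.
-/

namespace Vale.Agent.P153.R2.LAND

open Set Relation
open Vale.Agent.P153 Vale.Agent.P153.Topo
open Vale.Agent.P153.R2 (bx)
open Vale.Agent.P153.R2.PLAN
open Vale.Agent.P153.R2.F2 (OneS)

/-- The largest box around `w` in `V`. -/
theorem exists_largest {V : Set Pt} {w x₀ : Pt} {ρ : ℤ} (hw : w ∈ V) (hx : x₀ ∉ V)
    (hwx : w ∈ bx x₀ ρ) : ∃ s : ℤ, 0 ≤ s ∧ s < ρ ∧ bx w s ⊆ V ∧ ¬ bx w (s + 1) ⊆ V := by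
  classical
  have h0 : bx w (0 : ℤ) ⊆ V := by
    intro x hx
    simp only [bx, mem_ofPred_eq, abs_le] at hx
    have : x = w := Prod.ext (by omega) (by omega)
    rwa [this]
  have hρ : ¬ bx w ρ ⊆ V := by
    intro h
    apply hx
    apply h
    simp only [bx, mem_ofPred_eq, abs_le] at hwx ⊢
    omega
  have hρ0 : 0 ≤ ρ := (abs_nonneg _).trans hwx.1
  have hex : ∃ n : ℕ, ¬ bx w (n : ℤ) ⊆ V := ⟨ρ.toNat, by rwa [Int.toNat_of_nonneg hρ0]⟩
  set n := Nat.find hex with hn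
  have h1 : ¬ bx w (n : ℤ) ⊆ V := Nat.find_spec hex
  have h2 : n ≤ ρ.toNat := Nat.find_min' hex (by rwa [Int.toNat_of_nonneg hρ0])
  have h3 : n ≠ 0 := by
    intro h
    rw [h] at h1
    exact h1 h0
  have h4 : bx w ((n - 1 : ℕ) : ℤ) ⊆ V := by
    by_contra h
    exact Nat.find_min hex (show n - 1 < n by omega) h
  refine ⟨n - 1, by omega, by omega, ?_, ?_⟩
  · have e : (n : ℤ) - 1 = ((n - 1 : ℕ) : ℤ) := by omega
    rw [e]
    exact h4
  · rw [sub_add_cancel]
    exact h1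

/-- **RDEC implies LAND.** -/
theorem s_land {R₀ t₀ : ℤ} {c : ℝ} (hR : 1 ≤ R₀) (ht₀ : 1 ≤ t₀) (hc : 0 < c) (hone : OneS R₀ t₀ c)
    (j : ℕ) (hrd : S_rdec j) : S_land j := by
  obtain ⟨K₁, s₀, hK₁, hs₀, hrd⟩ := hrd (1 / 2) (by norm_num)
  obtain ⟨θ, s₁, hθ, hs₁, hmiss⟩ := miss_lower hR ht₀ hc hone j
  -- constants
  set S₀ : ℤ := s₀ + 2 * s₁ + 2 with hS₀
  set K : ℤ := K₁ + 4 * (S₀ + j + 4) with hK
  set β : ℝ := min (kap (j + 1) ^ ((2 * (S₀ + 1) + 1) ^ 2).toNat) (1 / 4 * θ) with hβ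
  have hβ0 : 0 < β := lt_min (pow_pos (kap_pos _) _) (by positivity)
  have hβ1 : β ≤ 1 := (min_le_left _ _).trans (pow_le_one₀ (kap_pos _).le (kap_le_one _))
  have hKpos : 1 ≤ K := by omega
  refine ⟨K * K, (β / 2) ^ 2, by nlinarith, by positivity, ?_⟩
  intro V A I hL x₀ r R hx₀ hr hRr hAn p hpV hpA hp ⟨op, hop, hpo⟩ q hqV hqA hq ⟨oq, hoq, hqo⟩
  set ρ : ℤ := K * r with hρ
  have hρr : K * ρ ≤ R := by rw [hρ, ← mul_assoc]; exact hRr
  have hρK : K ≤ ρ := by
    calc K = K * 1 := by ring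
      _ ≤ K * r := mul_le_mul_of_nonneg_left hr (by omega)
  have h4r : 4 * r ≤ ρ := by
    calc 4 * r ≤ K * r := mul_le_mul_of_nonneg_right (by omega) (by omega)
      _ = ρ := rfl
  have h4R : 4 * ρ ≤ R := by
    calc 4 * ρ ≤ K * ρ := mul_le_mul_of_nonneg_right (by omega) (by omega)
      _ ≤ R := hρr
  have hK₁r : K₁ * r ≤ ρ := mul_le_mul_of_nonneg_right (by omega) (by omega)
  have hK₁R : K₁ * ρ ≤ R := (mul_le_mul_of_nonneg_right (by omega) (by omega)).trans hρr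
  -- the frozen set
  set Z : Set Pt := V \ A with hZ
  have hVZ : V \ Z = V ∩ A := by
    ext x
    simp only [hZ, mem_sdiff, mem_inter_iff]
    tauto
  obtain ⟨ρn, hρn⟩ := Int.eq_ofNat_of_zero_le (show 0 ≤ ρ by omega)
  have hwall : ∀ x ∈ ebd V, ∀ b ∈ I x, -(2 * (j : ℤ) + 1) ≤ b ∧ b ≤ 1 := by
    intro x hx b hb
    by_cases hxA : x ∈ A
    · rw [hL.wallA x hx hxA] at hb
      simp only [mem_insert_iff, mem_singleton_iff] at hb
      omega
    · exact hL.wall x hx hxA b hb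
  have hfree : ∀ x ∈ V, x ∉ Z → I x = univ := fun x hx hxZ => hL.free x hx (by
    by_contra h
    exact hxZ ⟨hx, h⟩)
  have hin : ∀ x ∈ V, I x = univ ∨ ∀ c ∈ I x, -(2 * (j : ℤ) + 1) ≤ c := by
    intro x hx
    by_cases hxZ : x ∈ Z
    · exact Or.inr fun c hc => (hL.froz x hx hxZ.2 c hc).1
    · exact Or.inl (hfree x hx hxZ)
  have ha : Odd (-1 : ℤ) := by decide
  -- the middle annulus is free
  have hmid : ∀ w ∈ Ring x₀ ρ, ∀ y, y ∈ bx w (ρ / 2) → y ∈ A := by
    intro w hw y hy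
    apply hAn
    simp only [PLAN.Ring, bx, mem_ofPred_eq] at hw hy
    simp only [bx, mem_sdiff, mem_ofPred_eq]
    obtain ⟨hw1, hw2, hw3⟩ := hw
    rw [abs_le] at hw1 hw2 hy
    rw [abs_le] at hy
    constructor
    · rw [abs_le, abs_le]
      omega
    · rintro ⟨h5, h6⟩
      rw [abs_le] at h5 h6
      rcases hw3 with h7 | h7
      · rcases abs_eq (by omega) |>.1 h7 with h8 | h8 <;> omega
      · rcases abs_eq (by omega) |>.1 h7 with h8 | h8 <;> omega
  have hst : ∀ w ∈ Ring x₀ ρ, w ∈ V → β ≤ Pr (Cfg V I) (Arr V Z (-1) w) := by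
    intro w hw hwV
    obtain ⟨s, hs0, hsρ, hs1, hs2⟩ := exists_largest hwV hx₀ ⟨hw.1, hw.2.1⟩
    by_cases hsS : S₀ ≤ s
    · -- far from the walls
      obtain ⟨S, f, h1, h2, h3, h4⟩ := hrd V A I hL x₀ r ρ R hx₀ hr hK₁r hK₁R hAn w hwV hw s
        (by omega) hs1 hs2
      have hb2 : bx w (s / 2) ⊆ V \ Z := by
        rw [hVZ]
        exact fun x hx => ⟨hs1 (bx_mono (by omega) hx), hmid w hw x (bx_mono (by omega) hx)⟩
      have hm := hmiss V Z I (-1) ha hL.dat hL.ne sdiff_subset hfree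
        (fun x hx b hb => by have := (hL.froz x hx.1 hx.2 b hb).1; omega)
        (fun x hx b hb => by have := (hwall x hx b hb).1; omega) w (s / 2) (s / 4) (by omega)
        (by omega) (by omega) hb2
      refine (min_le_right _ _).trans (far_arr ha hL.dat hL.ne sdiff_subset
        (fun x hx b hb => (hL.froz x hx.1 hx.2 b hb).2) hfree
        (fun x hx b hb => by have := (hwall x hx b hb).2; omega) h1
        ((bx_mono (by omega)).trans hs1) (by omega) h2 h3 hθ.le (by norm_num) ?_ hm)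
      push_cast
      linarith
    · -- near the walls
      push Not at hsS
      obtain ⟨o, ho, hoV⟩ := Set.not_subset.1 hs2
      obtain ⟨sn, hsn⟩ := Int.eq_ofNat_of_zero_le (show 0 ≤ s + 1 by omega)
      rw [hsn] at ho
      have hnl := near_lev (V := V) (Z := Z) (I := I) (a := -1) (b := -(2 * (j : ℤ) + 1))
        (m := j + 1) (s := sn) (by rw [Int.odd_iff]; omega) hL.dat hL.ne hin
        (fun x hx c hc => (hwall x hx c hc).1) (by push_cast; ring) hwV (fun y hy => ?_) ho hoV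
      · refine (min_le_left _ _).trans (le_trans ?_ hnl)
        refine pow_le_pow_of_le_one (kap_pos _).le (kap_le_one _) (Int.toNat_le_toNat ?_)
        have h5 : 2 * (sn : ℤ) + 1 ≤ 2 * (S₀ + 1) + 1 := by omega
        exact pow_le_pow_left₀ (by omega) h5 2
      · have hyA : y ∈ A := by
          refine hmid w hw y (bx_mono ?_ hy)
          push_cast
          omega
        refine ⟨fun hyV => hL.free y hyV hyA, fun hyV c hc => ?_⟩
        rw [hL.wallA y hyV hyA] at hc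
        simp only [mem_insert_iff, mem_singleton_iff] at hc
        omega
  have hfin := land_arr (V := V) (Z := Z) (I := I) (a := -1) ha hL.dat hL.ne hL.cc sdiff_subset
    (fun x hx b hb => (hL.froz x hx.1 hx.2 b hb).2) (x₀ := x₀) (r := ρn) (by omega) (p := p)
    (q := q) ⟨hpV, hpA⟩ (bx_mono (by rw [hρn] at h4r; omega) hp) hpo hop ⟨hqV, hqA⟩
    (fun h => hq (bx_mono (by rw [hρn] at h4R; omega) h)) hqo hoq (α := β / 2) (by positivity)
    (by linarith) (fun w hw hwV => ?_)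
  · rw [hVZ] at hfin
    exact hfin
  · have := hst w (by rw [hρn]; exact hw) hwV
    linarith

end Vale.Agent.P153.R2.LAND
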