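import Vale.Agent.P153.R2.PLAN.Box

/-!
P153-R2, block LAND: the landing theorem with arbitrary frozen data `≤ a`, from the arrival
probabilities at the vertices of one ring; iterated local bound.
-/

namespace Vale.Agent.P153.R2.LAND

open Set Relation
open Vale.Agent.P153 Vale.Agent.P153.Topo
open Vale.Agent.P153.R2 (bx)
open Vale.Agent.P153.R2.PLAN

variable {V Z T : Set Pt} {I : Pt → Set ℤ} {a b : ℤ} {p q w : Pt}

/-- **Landing.** Frozen data at most `a` on `Z`, free elsewhere in `V`; `p, q ∈ Z` are next to the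
walls, on different sides of the ring; every vertex of the ring is joined to the walls off the
cluster of `Z` with probability at least `2 α`. -/
theorem land_arr (ha : Odd a) (hd : Dat V I) (hne : (Cfg V I).Nonempty) (hV : CC V) (hZV : Z ⊆ V)
    (hZ : ∀ x ∈ Z, ∀ b ∈ I x, b ≤ a) {x₀ : Pt} {r : ℕ} (h₀ : 0 < r)
    (hpZ : p ∈ Z) (hp : p ∈ bx x₀ (r - 1)) {op : Pt} (hpo : Adj p op) (hop : op ∉ V)
    (hqZ : q ∈ Z) (hq : q ∉ bx x₀ r) {oq : Pt} (hqo : Adj q oq) (hoq : oq ∉ V) {α : ℝ}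
    (hα : 0 ≤ α) (hα1 : 2 * α ≤ 1)
    (hst : ∀ w ∈ Ring x₀ r, w ∈ V → 2 * α ≤ Pr (Cfg V I) (Arr V Z a w)) :
    α ^ 2 ≤ Pr (Cfg V I) (SepAtt V (V \ Z) (a + 2) p q) := by
  have hf := Cfg_finite hd
  have hpV := hZV hpZ
  have hqV := hZV hqZ
  by_cases hpq : Conn V p q
  swap
  · have e : SepAtt V (V \ Z) (a + 2) p q = univ := by
      ext h
      simp only [mem_univ, iff_true]
      exact fun hc => hpq (hc.mono sdiff_subset)
    rw [e, Pr_univ hf hne]
    nlinarith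
  have hZa : ∀ h ∈ Cfg V I, ∀ x ∈ Z, h x ≤ a := fun h hh x hx => hZ x hx _ (hh.2.1 x)
  have hpr : p ∈ cor ((p.1, p.2), false) := by
    rw [cor_false]
    simp
  have hqr : q ∈ cor ((q.1, q.2), false) := by
    rw [cor_false]
    simp
  obtain ⟨C⟩ := exists_cut (O := Vᶜ) (by rw [compl_compl]; exact hpq) hpr hqr
  -- the wall next to `p` is in the box
  have hopb : op ∈ bx x₀ r := by
    rw [adj_iff] at hpo
    simp only [bx, mem_ofPred_eq, abs_le] at hp ⊢
    omega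
  obtain ⟨w, m, hx⟩ := exists_crosscut C (p := x₀) h₀ (by
    intro v hv
    rw [cor_false] at hv
    simp only [Finset.mem_insert, Finset.mem_singleton] at hv
    simp only [bx, mem_ofPred_eq, abs_le] at hp
    show v ∈ bx x₀ r
    simp only [bx, mem_ofPred_eq, abs_le]
    rcases hv with rfl | rfl | rfl <;> dsimp only <;> omega) (by
    intro h
    exact hq (h q hqr)) (walls_ring hV hd.fin hopb hop)
  refine (land hd hne hV hpr hqr hpZ C hx hα hα1 fun k hk hkm => hst _ (hx.mem k hkm.le) ?_).trans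
    (Pr_mono fun h hh hc => ?_)
  · have := hx.int k hk hkm
    by_contra h5
    exact this h5
  · have h1 : ∀ x ∈ V, x ∉ V \ Z → h x ≤ a := fun x hx hx' => by
      have : x ∈ Z := by
        by_contra h5
        exact hx' ⟨hx, h5⟩
      exact hZa h hh x this
    exact dual_sep hV hh.1 ha h1 (Conn.refl ⟨hpV, hZa h hh p hpZ⟩) hpo hop hc
      (joined_off (Conn.refl ⟨hqV, hZa h hh q hqZ⟩) hqo hoq hc) hoq

/-! ### The iterated local bound -/

/-- The constants. -/
noncomputable def kap : ℕ → ℝ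
  | 0 => 1 / 2
  | m + 1 => 1 / 3 * kap m ^ 6

theorem kap_pos (m : ℕ) : 0 < kap m := by
  induction m with
  | zero => unfold kap; norm_num
  | succ m ih => unfold kap; positivity

theorem kap_le_one (m : ℕ) : kap m ≤ 1 := by
  induction m with
  | zero => unfold kap; norm_num
  | succ m ih =>
    unfold kap
    have := pow_le_one₀ (n := 6) (kap_pos m).le ih
    linarith

theorem adj_bx {x y : Pt} {m : ℤ} (hxy : Adj x y) : bx y m ⊆ bx x (m + 1) := by
  rintro z hz
  rw [adj_iff] at hxy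
  simp only [bx, mem_ofPred_eq, abs_le] at hz ⊢
  omega

/-- The data are at least `b`; near `x` there are no frozen vertices and the walls are at least
`b + 2 m - 2`. Then `P(h x ≥ b + 2 m) ≥ kap m`. -/
theorem local_lev (hb : Odd b) (hd : Dat V I) (hne : (Cfg V I).Nonempty)
    (hin : ∀ x ∈ V, I x = univ ∨ ∀ c ∈ I x, b ≤ c) (hout : ∀ x ∈ ebd V, ∀ c ∈ I x, b ≤ c) (m : ℕ) :
    ∀ x ∈ V, (∀ y ∈ bx x m, (y ∈ V → I y = univ) ∧
      (y ∈ ebd V → ∀ c ∈ I y, b + 2 * m - 2 ≤ c)) →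
      kap m ≤ Pr (Cfg V I) {h | b + 2 * m ≤ h x} := by
  induction m with
  | zero =>
    intro x hx _
    have := half_le hb hd hne hin hout hx
    simpa [kap] using this
  | succ m ih =>
    intro x hx hbx
    have hm : ∀ y ∈ nbr x, kap m ≤ Pr (Cfg V I) {h | b + 2 * m ≤ h y} := by
      intro y hy
      have hxy := mem_nbr.1 hy
      have hsub : bx y m ⊆ bx x ((m + 1 : ℕ) : ℤ) := by
        push_cast
        exact adj_bx hxy
      by_cases hyV : y ∈ V
      · refine ih y hyV fun z hz => ⟨(hbx z (hsub hz)).1, fun hzV c hc => ?_⟩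
        have := (hbx z (hsub hz)).2 hzV c hc
        push_cast at this
        omega
      · have hyb : y ∈ bx y m := by
          simp only [bx, mem_ofPred_eq, sub_self, abs_zero]
          omega
        have e : Pr (Cfg V I) {h | b + 2 * m ≤ h y} = 1 := by
          rw [← Pr_univ (Cfg_finite hd) hne]
          refine Pr_congr fun h hh => ⟨fun _ => mem_univ _, fun _ => ?_⟩
          have := (hbx y (hsub hyb)).2 ⟨hyV, x, hx, hxy⟩ _ (hh.2.1 y)
          rw [mem_ofPred_eq]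
          push_cast at this
          omega
        rw [e]
        exact kap_le_one m
    have hxb : x ∈ bx x ((m + 1 : ℕ) : ℤ) := by
      simp only [bx, mem_ofPred_eq, sub_self, abs_zero]
      omega
    have h1 := single (a := b + 2 * m) hd hx ((hbx x hxb).1 hx)
    have h2 := Pr_ge_pow hd hne (kap_pos m).le (nbr x) hm
    have h3 : kap m ^ 6 ≤ kap m ^ (nbr x).card :=
      pow_le_pow_of_le_one (kap_pos m).le (kap_le_one m) (card_nbr_le x)
    have e : {h : Hg | b + 2 * ((m + 1 : ℕ) : ℤ) ≤ h x} = {h | b + 2 * m + 2 ≤ h x} := by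
      ext h
      simp only [mem_ofPred_eq]
      push_cast
      constructor <;> intro h <;> linarith
    rw [e]
    unfold kap
    linarith

theorem bx_finset (p : Pt) (r : ℤ) : ∃ S : Finset Pt, (∀ x, x ∈ S ↔ x ∈ bx p r) ∧
    (0 ≤ r → S.card ≤ ((2 * r + 1) ^ 2).toNat) := by
  refine ⟨Finset.Icc (p.1 - r) (p.1 + r) ×ˢ Finset.Icc (p.2 - r) (p.2 + r), fun x => ?_,
    fun hr => ?_⟩
  · simp only [Finset.mem_product, Finset.mem_Icc, bx, mem_ofPred_eq, abs_le]
    omega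
  · rw [Finset.card_product, Int.card_Icc, Int.card_Icc]
    have e1 : p.1 + r + 1 - (p.1 - r) = 2 * r + 1 := by ring
    have e2 : p.2 + r + 1 - (p.2 - r) = 2 * r + 1 := by ring
    rw [e1, e2, sq, Int.toNat_mul (by omega) (by omega)]

/-- Arrival near the walls: the walls meet `bx w s`; near `bx w s` there are no frozen vertices and
the walls are at least `b + 2 m - 2 = a`. -/
theorem near_lev (hb : Odd b) (hd : Dat V I) (hne : (Cfg V I).Nonempty)
    (hin : ∀ x ∈ V, I x = univ ∨ ∀ c ∈ I x, b ≤ c) (hout : ∀ x ∈ ebd V, ∀ c ∈ I x, b ≤ c) {m s : ℕ}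
    (hbm : b + 2 * m = a + 2) (hw : w ∈ V) (hbx : ∀ y ∈ bx w (s + m), (y ∈ V → I y = univ) ∧
      (y ∈ ebd V → ∀ c ∈ I y, a ≤ c)) {o : Pt} (ho : o ∈ bx w s) (hoV : o ∉ V) :
    kap m ^ ((2 * (s : ℤ) + 1) ^ 2).toNat ≤ Pr (Cfg V I) (Arr V Z a w) := by
  classical
  obtain ⟨S, hS, hSc⟩ := bx_finset w s
  have hwb : w ∈ bx w s := by
    simp only [bx, mem_ofPred_eq, sub_self, abs_zero]
    omega
  obtain ⟨u, o', h1, h2, h3⟩ := adj_of_meet (cn_bx w s) hwb hw ho hoV
  set P : Finset Pt := S.filter (· ∈ V) with hP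
  have hPm : ∀ x, x ∈ P ↔ x ∈ bx w s ∩ V := by
    intro x
    rw [hP, Finset.mem_filter, hS]
    rfl
  have hPc : P.card ≤ ((2 * (s : ℤ) + 1) ^ 2).toNat :=
    (Finset.card_filter_le _ _).trans (hSc (by omega))
  have h4 : kap m ^ P.card ≤ Pr (Cfg V I) {h | ∀ x ∈ P, a + 2 ≤ h x} := by
    refine Pr_ge_pow hd hne (kap_pos m).le P fun x hx => ?_
    rw [← hbm]
    have hx' := (hPm x).1 hx
    refine local_lev hb hd hne hin hout m x hx'.2 fun y hy => ?_
    have hy' : y ∈ bx w (s + m) := by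
      have := hx'.1
      simp only [bx, mem_ofPred_eq, abs_le] at this hy ⊢
      omega
    refine ⟨(hbx y hy').1, fun h5 c hc => ?_⟩
    have := (hbx y hy').2 h5 c hc
    omega
  refine (pow_le_pow_of_le_one (kap_pos m).le (kap_le_one m) hPc).trans
    (h4.trans (Pr_mono fun h _ hh => ?_))
  have key : bx w s ∩ V ⊆ (Kd V Z a h)ᶜ := by
    intro x hx hxK
    have h5 : h x ≤ a := (Cl_subset hxK).2
    have h6 : a + 2 ≤ h x := hh x ((hPm x).2 hx)
    omega
  exact ⟨o', h3, (h1.mono key).tail h2 fun h5 => h3 (Kd_subset h5)⟩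

/-- Arrival away from the walls. -/
theorem far_arr (ha : Odd a) (hd : Dat V I) (hne : (Cfg V I).Nonempty) (hZV : Z ⊆ V)
    (hZ : ∀ x ∈ Z, ∀ b ∈ I x, b ≤ a) (hI : ∀ x ∈ V, x ∉ Z → I x = univ)
    (hw : ∀ x ∈ ebd V, ∀ b ∈ I x, b ≤ a + 2) {f : Pt → ℝ} {S : Finset Pt} {η θ : ℝ} {t : ℤ}
    (hSV : ∀ x ∈ S, x ∈ bx w t) (hV : bx w t ⊆ V) (ht : 0 ≤ t) (hf : ∀ x ∈ S, 0 ≤ f x)
    (hf1 : ∑ x ∈ S, f x = 1) (hθ : 0 ≤ θ) (hη : 0 ≤ η)
    (h1 : η ≤ (Ex (Cfg V I) (fun h => ∑ x ∈ S, f x * (h x : ℝ)) - a) / 2)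
    (h2 : θ ≤ Pr (Cfg V I) (Miss V Z a (bx w t))) : η * θ ≤ Pr (Cfg V I) (Arr V Z a w) := by
  have hwt : w ∈ bx w t := by
    simp only [bx, mem_ofPred_eq, sub_self, abs_zero]
    omega
  exact (mul_le_mul h1 h2 hθ (hη.trans h1)).trans (star ha hd hne hZV hZ hI hw
    (fun x hx => hV (hSV x hx)) hf hf1 (fun x hx => cn_bx w t x (hSV x hx) w hwt))

end Vale.Agent.P153.R2.LAND
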